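import Vale.Agent.P166F.Energy.Root
import Vale.Agent.P166F.Low.Defs

/-!
P166: the R-transform of an atomic law along the Cauchy parametrisation `B ↦ B g(B)`.
-/

namespace Vale.Agent.P166F.Low

open MeasureTheory Set

variable {K : ℕ}

/-- The slopes of the atoms above the atom `i0`. -/
noncomputable def dls (a : Atoms K) (β : ℝ) (i0 : Fin K) (i : Fin K) : ℝ := β * (a.lam i - a.lam i0)

/-- The determinant ratio `∑ w / (1 - B δ)`. -/
noncomputable def gw (w δ : Fin K → ℝ) (B : ℝ) : ℝ := ∑ i, w i / (1 - B * δ i)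

/-- The sum `∑ w δ / (1 - B δ)`. -/
noncomputable def hw (w δ : Fin K → ℝ) (B : ℝ) : ℝ := ∑ i, w i * δ i / (1 - B * δ i)

/-- The derivative of `gw`. -/
noncomputable def gw' (w δ : Fin K → ℝ) (B : ℝ) : ℝ := ∑ i, w i * δ i / (1 - B * δ i) ^ 2

/-- The field strength (1 - 1 / g) / B, continued to the origin. -/
noncomputable def kw (w δ : Fin K → ℝ) (B : ℝ) : ℝ := hw w δ B / gw w δ B

/-- The difference quotient of `kw`. -/
noncomputable def kq (w δ : Fin K → ℝ) (x y : ℝ) : ℝ :=
  (∑ i, ∑ j, w i * w j * (δ i - δ j) ^ 2 /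
      ((1 - x * δ i) * (1 - y * δ i) * ((1 - x * δ j) * (1 - y * δ j)))) /
    (2 * (gw w δ x * gw w δ y))

/-- Admissible weights, slopes and argument. -/
structure Adm (w δ : Fin K → ℝ) (B ε : ℝ) : Prop where
  wpos : ∀ i, 0 ≤ w i
  total : ∑ i, w i = 1
  slope : ∀ i, 0 ≤ δ i
  arg : 0 ≤ B
  eps : 0 < ε
  edge : ∀ i, B * δ i ≤ 1 - ε

variable {w δ : Fin K → ℝ} {B x y ε : ℝ}

lemma Adm.den (h : Adm w δ B ε) (i : Fin K) : ε ≤ 1 - B * δ i := by linarith [h.edge i]

lemma Adm.den_pos (h : Adm w δ B ε) (i : Fin K) : 0 < 1 - B * δ i := h.eps.trans_le (h.den i)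

lemma Adm.den_le (h : Adm w δ B ε) (i : Fin K) : 1 - B * δ i ≤ 1 := by
  linarith [mul_nonneg h.arg (h.slope i)]

lemma Adm.mono (h : Adm w δ B ε) {B' : ℝ} (h0 : 0 ≤ B') (hle : B' ≤ B) : Adm w δ B' ε :=
  ⟨h.wpos, h.total, h.slope, h0, h.eps,
    fun i => (mul_le_mul_of_nonneg_right hle (h.slope i)).trans (h.edge i)⟩

lemma Adm.one_le_gw (h : Adm w δ B ε) : 1 ≤ gw w δ B := by
  rw [← h.total]
  refine Finset.sum_le_sum fun i _ => ?_
  rw [le_div_iff₀ (h.den_pos i)]
  exact mul_le_of_le_one_right (h.wpos i) (h.den_le i)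

lemma Adm.gw_pos (h : Adm w δ B ε) : 0 < gw w δ B := zero_lt_one.trans_le h.one_le_gw

lemma gw_zero (hw : ∑ i, w i = 1) : gw w δ 0 = 1 := by simp [gw, hw]

lemma Adm.gw_eq (h : Adm w δ B ε) : gw w δ B = 1 + B * hw w δ B := by
  rw [← h.total, gw, hw, Finset.mul_sum, ← Finset.sum_add_distrib]
  refine Finset.sum_congr rfl fun i _ => ?_
  have := (h.den_pos i).ne'
  field_simp
  ring

lemma Adm.kw_eq (h : Adm w δ B ε) (hB : 0 < B) : kw w δ B = (1 - (gw w δ B)⁻¹) / B := by
  have := h.gw_pos.ne'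
  rw [kw]
  field_simp
  linarith [h.gw_eq]

lemma kw_sub (hx : Adm w δ x ε) (hy : Adm w δ y ε) :
    kw w δ y - kw w δ x = (y - x) * kq w δ x y := by
  have e : 2 * (hw w δ y * gw w δ x - hw w δ x * gw w δ y) =
      (y - x) * ∑ i, ∑ j, w i * w j * (δ i - δ j) ^ 2 /
        ((1 - x * δ i) * (1 - y * δ i) * ((1 - x * δ j) * (1 - y * δ j))) := by
    have e1 : hw w δ y * gw w δ x - hw w δ x * gw w δ y = ∑ i, ∑ j, w i * w j *
        (δ i / ((1 - y * δ i) * (1 - x * δ j)) - δ i / ((1 - x * δ i) * (1 - y * δ j))) := by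
      simp only [hw, gw, Finset.sum_mul_sum, ← Finset.sum_sub_distrib]
      refine Finset.sum_congr rfl fun i _ => Finset.sum_congr rfl fun j _ => ?_
      rw [div_mul_div_comm, div_mul_div_comm]
      ring
    rw [two_mul]
    nth_rewrite 2 [e1]
    rw [e1]
    nth_rewrite 2 [Finset.sum_comm]
    simp only [Finset.mul_sum, ← Finset.sum_add_distrib]
    refine Finset.sum_congr rfl fun i _ => Finset.sum_congr rfl fun j _ => ?_
    have ht : (1 - x * δ i) * (1 - y * δ j) - (1 - y * δ i) * (1 - x * δ j) =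
        (y - x) * (δ i - δ j) := by ring
    have pair : ∀ p q r v : ℝ, p ≠ 0 → q ≠ 0 → r ≠ 0 → v ≠ 0 →
        δ i / (q * r) - δ i / (p * v) + (δ j / (v * p) - δ j / (r * q)) =
          (δ i - δ j) * (p * v - q * r) / (p * q * (r * v)) := fun p q r v _ _ _ _ => by
      field_simp
      ring
    rw [mul_comm (w j) (w i), ← mul_add,
      pair _ _ _ _ (hx.den_pos i).ne' (hy.den_pos i).ne' (hx.den_pos j).ne' (hy.den_pos j).ne', ht]
    ring
  have := hx.gw_pos.ne'
  have := hy.gw_pos.ne'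
  rw [kw, kw, kq, div_sub_div _ _ hy.gw_pos.ne' hx.gw_pos.ne', ← mul_div_assoc, ← e]
  field_simp

lemma kq_nonneg (hx : Adm w δ x ε) (hy : Adm w δ y ε) : 0 ≤ kq w δ x y := by
  refine div_nonneg (Finset.sum_nonneg fun i _ => Finset.sum_nonneg fun j _ => ?_)
    (by nlinarith [hx.gw_pos, hy.gw_pos])
  exact div_nonneg (mul_nonneg (mul_nonneg (hx.wpos i) (hx.wpos j)) (sq_nonneg _))
    (mul_nonneg (mul_nonneg (hx.den_pos i).le (hy.den_pos i).le)
      (mul_nonneg (hx.den_pos j).le (hy.den_pos j).le))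

lemma kq_le (hx : Adm w δ x ε) (hy : Adm w δ y ε) {D : ℝ} (hD : ∀ i, δ i ≤ D) :
    kq w δ x y ≤ D ^ 2 / ε ^ 4 := by
  have hε := hx.eps
  have hg : 2 ≤ 2 * (gw w δ x * gw w δ y) := by nlinarith [hx.one_le_gw, hy.one_le_gw]
  rw [kq, div_le_iff₀ (by linarith)]
  calc (∑ i, ∑ j, w i * w j * (δ i - δ j) ^ 2 /
        ((1 - x * δ i) * (1 - y * δ i) * ((1 - x * δ j) * (1 - y * δ j))))
      ≤ ∑ i, ∑ j, w i * w j * (D ^ 2 / ε ^ 4) := by
        refine Finset.sum_le_sum fun i _ => Finset.sum_le_sum fun j _ => ?_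
        rw [mul_div_assoc]
        refine mul_le_mul_of_nonneg_left ?_ (mul_nonneg (hx.wpos i) (hx.wpos j))
        have h2 : (δ i - δ j) ^ 2 ≤ D ^ 2 := by
          nlinarith [hx.slope i, hx.slope j, hD i, hD j]
        refine div_le_div₀ (sq_nonneg _) h2 (by positivity) ?_
        rw [show ε ^ 4 = ε * ε * (ε * ε) by ring]
        exact mul_le_mul (mul_le_mul (hx.den i) (hy.den i) hε.le (hx.den_pos i).le)
          (mul_le_mul (hx.den j) (hy.den j) hε.le (hx.den_pos j).le) (by positivity)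
          (mul_nonneg (hx.den_pos i).le (hy.den_pos i).le)
    _ = 1 * (D ^ 2 / ε ^ 4) := by
        simp only [← Finset.mul_sum, ← Finset.sum_mul, hx.total, mul_one, one_mul]
    _ ≤ D ^ 2 / ε ^ 4 * (2 * (gw w δ x * gw w δ y)) := by
        rw [one_mul]
        exact le_mul_of_one_le_right (by positivity) (by linarith)

lemma Adm.hasDerivAt_gw (h : Adm w δ B ε) : HasDerivAt (gw w δ) (gw' w δ B) B := by
  refine HasDerivAt.fun_sum fun i _ => ?_
  have hd : HasDerivAt (fun D => 1 - D * δ i) (-δ i) B := by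
    simpa using ((hasDerivAt_id B).mul_const (δ i)).const_sub 1
  refine ((hasDerivAt_const B (w i)).fun_div hd (h.den_pos i).ne').congr_deriv ?_
  simp [mul_comm]

/-- At a positive point the derivative is `kq` on the diagonal. -/
lemma Adm.kq_self (h : Adm w δ B ε) (hB : 0 < B) :
    kq w δ B B = gw' w δ B / (gw w δ B ^ 2 * B) - (1 - (gw w δ B)⁻¹) / B ^ 2 := by
  set g := gw w δ B with hg
  have hg0 := h.gw_pos.ne'
  set H := hw w δ B with hH
  have e1 : g = 1 + B * H := h.gw_eq
  set H' := ∑ i, w i * δ i ^ 2 / (1 - B * δ i) ^ 2 with hH'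
  have e2 : gw' w δ B = H + B * H' := by
    rw [hH, hH', gw', hw, Finset.mul_sum, ← Finset.sum_add_distrib]
    refine Finset.sum_congr rfl fun i _ => ?_
    have := (h.den_pos i).ne'
    field_simp
    ring
  have e3 : ∑ i, ∑ j, w i * w j * (δ i - δ j) ^ 2 /
      ((1 - B * δ i) * (1 - B * δ i) * ((1 - B * δ j) * (1 - B * δ j))) =
      2 * (H' * g - H * gw' w δ B) := by
    have a1 : H' * g = ∑ i, ∑ j, w i * w j * (δ i ^ 2 * (1 - B * δ j)) /
        ((1 - B * δ i) * (1 - B * δ i) * ((1 - B * δ j) * (1 - B * δ j))) := by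
      rw [hH', hg, gw, Finset.sum_mul_sum]
      refine Finset.sum_congr rfl fun i _ => Finset.sum_congr rfl fun j _ => ?_
      have := (h.den_pos i).ne'
      have := (h.den_pos j).ne'
      field_simp
    have a2 : H * gw' w δ B = ∑ i, ∑ j, w i * w j * (δ i * δ j * (1 - B * δ i)) /
        ((1 - B * δ i) * (1 - B * δ i) * ((1 - B * δ j) * (1 - B * δ j))) := by
      rw [hH, gw', hw, Finset.sum_mul_sum]
      refine Finset.sum_congr rfl fun i _ => Finset.sum_congr rfl fun j _ => ?_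
      have := (h.den_pos i).ne'
      have := (h.den_pos j).ne'
      field_simp
    have a3 : H' * g - H * gw' w δ B = ∑ i, ∑ j, w i * w j * (δ i ^ 2 * (1 - B * δ j) -
        δ i * δ j * (1 - B * δ i)) /
          ((1 - B * δ i) * (1 - B * δ i) * ((1 - B * δ j) * (1 - B * δ j))) := by
      rw [a1, a2, ← Finset.sum_sub_distrib]
      refine Finset.sum_congr rfl fun i _ => ?_
      rw [← Finset.sum_sub_distrib]
      exact Finset.sum_congr rfl fun j _ => by rw [← sub_div, ← mul_sub]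
    rw [two_mul, a3]
    nth_rewrite 3 [Finset.sum_comm]
    simp only [← Finset.sum_add_distrib]
    refine Finset.sum_congr rfl fun i _ => Finset.sum_congr rfl fun j _ => ?_
    rw [show (1 - B * δ j) * (1 - B * δ j) * ((1 - B * δ i) * (1 - B * δ i)) =
      (1 - B * δ i) * (1 - B * δ i) * ((1 - B * δ j) * (1 - B * δ j)) by ring, ← add_div]
    congr 1
    ring
  rw [kq, e3, e2, ← hg]
  have hne : 1 + B * H ≠ 0 := e1 ▸ hg0
  rw [e1]
  field_simp
  ring

/-- The logarithmic primitive. -/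
noncomputable def llsum (w δ : Fin K → ℝ) (B : ℝ) : ℝ :=
  (∑ i, w i * Real.log (1 - B * δ i)) + Real.log (gw w δ B)

/-- The energy primitive along `B ↦ B g(B)`. -/
noncomputable def prim (w δ : Fin K → ℝ) (B : ℝ) : ℝ := gw w δ B - 1 - llsum w δ B

lemma Adm.hasDerivAt_prim (h : Adm w δ B ε) :
    HasDerivAt (prim w δ) (kw w δ B * (gw w δ B + B * gw' w δ B)) B := by
  have hl : HasDerivAt (fun D => ∑ i, w i * Real.log (1 - D * δ i))
      (∑ i, w i * (-δ i / (1 - B * δ i))) B := by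
    refine HasDerivAt.fun_sum fun i _ => HasDerivAt.const_mul (w i) ?_
    have hd : HasDerivAt (fun D => 1 - D * δ i) (-δ i) B := by
      simpa using ((hasDerivAt_id B).mul_const (δ i)).const_sub 1
    exact hd.log (h.den_pos i).ne'
  refine ((h.hasDerivAt_gw.sub_const 1).sub
    (hl.add (h.hasDerivAt_gw.log h.gw_pos.ne'))).congr_deriv ?_
  have e : ∑ i, w i * (-δ i / (1 - B * δ i)) = -hw w δ B := by
    rw [hw, ← Finset.sum_neg_distrib]
    exact Finset.sum_congr rfl fun i _ => by ring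
  have := h.gw_pos.ne'
  rw [e, kw]
  field_simp
  linear_combination gw' w δ B * h.gw_eq

lemma prim_zero (hw : ∑ i, w i = 1) : prim w δ 0 = 0 := by simp [prim, llsum, gw_zero hw]

/-- The scaled R-transform, as an average over temperatures, defined for every argument. -/
noncomputable def rfun (a : Atoms K) (β d : ℝ) : ℝ := ∫ s in (0 : ℝ)..β, a.avg (s * d)

/-- A Lipschitz constant of `rfun`. -/
noncomputable def rlip (a : Atoms K) (β : ℝ) : ℝ := a.rad * a.lipC * β * β

lemma rfun_eq (a : Atoms K) {β d : ℝ} (hβ : 0 ≤ β) (hd : 0 ≤ d) :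
    rfun a β d = β * rtr a.law (β * d) := a.integral_avg hd hβ

lemma avg_comp (a : Atoms K) (d : ℝ) : Continuous fun s => a.avg (s * d) :=
  a.continuous_avg.comp (continuous_id.mul continuous_const)

lemma rfun_lip (a : Atoms K) {β : ℝ} (hβ : 0 ≤ β) (d d' : ℝ) :
    |rfun a β d - rfun a β d'| ≤ rlip a β * |d - d'| := by
  rw [rfun, rfun, ← intervalIntegral.integral_sub ((avg_comp a d).intervalIntegrable _ _)
    ((avg_comp a d').intervalIntegrable _ _), ← Real.norm_eq_abs]
  refine (intervalIntegral.norm_integral_le_of_norm_le_const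
    (C := a.rad * a.lipC * β * |d - d'|) fun s hs => ?_).trans (le_of_eq ?_)
  · rw [uIoc_of_le hβ] at hs
    refine (Real.norm_eq_abs _).trans_le ((a.avg_lip _ _).trans ?_)
    rw [← mul_sub, abs_mul, abs_of_pos hs.1, mul_assoc (a.rad * a.lipC) β]
    exact mul_le_mul_of_nonneg_left (mul_le_mul_of_nonneg_right hs.2 (abs_nonneg _))
      (mul_nonneg a.rad_nonneg a.lipC_nonneg)
  · rw [sub_zero, abs_of_nonneg hβ, rlip]; ring

lemma abs_rfun_le (a : Atoms K) {β : ℝ} (hβ : 0 ≤ β) (d : ℝ) : |rfun a β d| ≤ β * a.rad := by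
  rw [rfun, ← Real.norm_eq_abs]
  refine (intervalIntegral.norm_integral_le_of_norm_le_const
    (C := a.rad) fun s _ => (Real.norm_eq_abs _).trans_le (a.abs_avg_le _)).trans (le_of_eq ?_)
  rw [sub_zero, abs_of_nonneg hβ, mul_comm]

lemma continuous_rfun (a : Atoms K) {β : ℝ} (hβ : 0 ≤ β) : Continuous (rfun a β) :=
  (LipschitzWith.of_dist_le' fun x y => by simpa [Real.dist_eq] using rfun_lip a hβ x y).continuous

lemma adm_atoms (a : Atoms K) {β : ℝ} (hβ : 0 ≤ β) {i0 : Fin K} (hmin : ∀ i, a.lam i0 ≤ a.lam i)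
    {B ε : ℝ} (hB : 0 ≤ B) (hε : 0 < ε) (he : ∀ i, B * dls a β i0 i ≤ 1 - ε) :
    Adm a.wt (dls a β i0) B ε :=
  ⟨fun i => (a.pos i).le, a.total, fun i => mul_nonneg hβ (sub_nonneg.2 (hmin i)), hB, hε, he⟩

/-- Along the parametrisation the R-transform is the field strength. -/
lemma rfun_param (a : Atoms K) {β : ℝ} (hβ : 0 < β) {i0 : Fin K} {B ε : ℝ} (hB : 0 < B)
    (h : Adm a.wt (dls a β i0) B ε) :
    rfun a β (B * gw a.wt (dls a β i0) B) = β * a.lam i0 + kw a.wt (dls a β i0) B := by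
  set g := gw a.wt (dls a β i0) B with hg
  have hg0 : 0 < g := h.gw_pos
  have hu : 0 < β * (B * g) := by positivity
  rw [rfun_eq a hβ.le (by positivity), rtr, if_neg hu.not_ge, a.zf_law hu]
  have hE : g * (1 + β * B * a.lam i0) = a.eroot (β * (B * g)) := by
    have key : ∀ i, g * (1 + β * B * a.lam i0) - β * (B * g) * a.lam i =
        g * (1 - B * dls a β i0 i) := fun i => by simp only [dls]; ring
    refine a.eroot_unique (fun i => ?_) ?_
    · have := mul_pos hg0 (h.den_pos i)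
      linarith [key i]
    · simp only [key, ← div_div]
      have e : ∀ i, a.wt i / g / (1 - B * dls a β i0 i) = a.wt i / (1 - B * dls a β i0 i) / g :=
        fun i => div_right_comm _ _ _
      simp only [e, ← Finset.sum_div]
      exact div_self hg0.ne'
  rw [← hE, h.kw_eq hB, ← hg]
  field_simp
  ring

/-- The integral of the R-transform up to `B g(B)`. -/
lemma integral_rfun_param (a : Atoms K) {β : ℝ} (hβ : 0 < β) {i0 : Fin K} {B ε : ℝ}
    (h : Adm a.wt (dls a β i0) B ε) :
    ∫ d in (0 : ℝ)..(B * gw a.wt (dls a β i0) B), rfun a β d =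
      β * a.lam i0 * (B * gw a.wt (dls a β i0) B) + prim a.wt (dls a β i0) B := by
  set δ := dls a β i0 with hδ
  set F : ℝ → ℝ := fun x => (∫ d in (0 : ℝ)..(x * gw a.wt δ x), rfun a β d) -
    β * a.lam i0 * (x * gw a.wt δ x) - prim a.wt δ x with hF
  have hd : ∀ x ∈ Icc 0 B, HasDerivAt F
      ((rfun a β (x * gw a.wt δ x) - β * a.lam i0 - kw a.wt δ x) *
        (gw a.wt δ x + x * gw' a.wt δ x)) x := fun x hx => by
    have hA := h.mono hx.1 hx.2
    have hphi : HasDerivAt (fun x => x * gw a.wt δ x) (gw a.wt δ x + x * gw' a.wt δ x) x := by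
      simpa using (hasDerivAt_id' x).fun_mul hA.hasDerivAt_gw
    have hI : HasDerivAt (fun d => ∫ t in (0 : ℝ)..d, rfun a β t) (rfun a β (x * gw a.wt δ x))
        (x * gw a.wt δ x) :=
      intervalIntegral.integral_hasDerivAt_right ((continuous_rfun a hβ.le).intervalIntegrable _ _)
        ((continuous_rfun a hβ.le).stronglyMeasurableAtFilter _ _) (continuous_rfun a hβ.le).continuousAt
    refine (((hI.comp x hphi).sub (hphi.const_mul (β * a.lam i0))).sub hA.hasDerivAt_prim).congr_deriv ?_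
    ring
  have h0 : F 0 = 0 := by simp [hF, prim_zero a.total]
  have hFB : F B = F 0 := by
    rcases h.arg.eq_or_lt with hB | hB
    · rw [hB]
    · refine (constant_of_has_deriv_right_zero (fun x hx => (hd x hx).continuousAt.continuousWithinAt)
        (fun x hx => ?_) B (right_mem_Icc.2 h.arg))
      have hd' := hd x (Ico_subset_Icc_self hx)
      rcases hx.1.eq_or_lt with hx0 | hx0
      · subst hx0
        have e : rfun a β 0 - β * a.lam i0 - kw a.wt δ 0 = 0 := by
          rw [rfun_eq a hβ.le le_rfl, rtr, if_pos (by simp), kw, gw_zero a.total, div_one, hw,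
            Atoms.integral_law]
          simp only [zero_mul, sub_zero, div_one, hδ, dls]
          rw [Finset.mul_sum]
          have e2 : β * a.lam i0 = ∑ i, a.wt i * (β * a.lam i0) := by
            rw [← Finset.sum_mul, a.total, one_mul]
          rw [e2, ← Finset.sum_sub_distrib, ← Finset.sum_sub_distrib]
          exact Finset.sum_eq_zero fun i _ => by ring
        simp only [zero_mul, e] at hd'
        exact hd'.hasDerivWithinAt
      · rw [rfun_param a hβ hx0 (h.mono hx.1 hx.2.le)] at hd'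
        simp only [hδ, add_sub_cancel_left, sub_self, zero_mul] at hd' ⊢
        exact hd'.hasDerivWithinAt
  rw [h0] at hFB
  simp only [hF] at hFB
  linarith

end Vale.Agent.P166F.Low
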