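import Vale.Agent.P166F.Ent
import Vale.Agent.P166F.Low.Formula.Scalar

/-!
P166: sums along the levels, step distribution functions and integrals along them.
-/

namespace Vale.Agent.P166F.Low

open MeasureTheory Set Vale.Agent.P157.Low

variable {r : ℕ} {m p q : Fin (r + 1) → ℝ} {c : ℝ}

lemma castSucc_le_succ' (i : Fin r) : i.castSucc ≤ i.succ := Fin.le_def.2 (by simp)

lemma incr_zero' (q : Fin (r + 1) → ℝ) : incr q 0 = q 0 := by simp [incr]

lemma incr_succ' (q : Fin (r + 1) → ℝ) (i : Fin r) : incr q i.succ = q i.succ - q i.castSucc := by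
  simp [incr, Fin.castSucc, Fin.castAdd, Fin.castLE]

/-- A sum over part of the positive levels. -/
lemma partial_succ (f : Fin (r + 1) → ℝ) (i : Fin r) :
    (∑ l, if l ≠ 0 ∧ l ≤ i.succ then f l else 0) =
      (∑ l, if l ≠ 0 ∧ l ≤ i.castSucc then f l else 0) + f i.succ := by
  have e : ∀ l : Fin (r + 1), (if l ≠ 0 ∧ l ≤ i.succ then f l else 0) =
      (if l ≠ 0 ∧ l ≤ i.castSucc then f l else 0) + if l = i.succ then f i.succ else 0 := fun l => by
    rcases eq_or_ne l i.succ with rfl | hne
    · rw [if_pos ⟨Fin.succ_ne_zero i, le_rfl⟩, if_pos rfl,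
        if_neg fun h => absurd h.2 (not_le.2 (Fin.lt_def.2 (by simp))), zero_add]
    · rw [if_neg hne, add_zero]
      refine if_congr (and_congr_right fun _ => ⟨fun h => ?_, fun h => h.trans (castSucc_le_succ' i)⟩)
        rfl rfl
      have : (l : ℕ) ≠ (i.succ : ℕ) := fun h' => hne (Fin.ext h')
      simp only [Fin.le_def, Fin.val_succ, Fin.val_castSucc] at h this ⊢
      omega
  simp only [e, Finset.sum_add_distrib, Finset.sum_ite_eq', Finset.mem_univ, if_true]

lemma partial_zero (f : Fin (r + 1) → ℝ) : (∑ l, if l ≠ 0 ∧ l ≤ 0 then f l else 0) = 0 :=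
  Finset.sum_eq_zero fun _ _ => if_neg fun h => h.1 (Fin.le_zero_iff.1 h.2)

lemma sum_ne_zero' (f : Fin (r + 1) → ℝ) :
    (∑ l : Fin (r + 1), if l = 0 then 0 else f l) = ∑ i : Fin r, f i.succ := by
  rw [Fin.sum_univ_succ, if_pos rfl, zero_add]
  exact Finset.sum_congr rfl fun i _ => if_neg (Fin.succ_ne_zero i)

lemma below_last (m q : Fin (r + 1) → ℝ) (c : ℝ) :
    below m q c (Fin.last r) = c * (1 - q (Fin.last r)) := by
  rw [below, Finset.sum_eq_zero fun i _ => if_neg (not_lt.2 (Fin.le_last i)), add_zero]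

lemma below_succ (m q : Fin (r + 1) → ℝ) (c : ℝ) (i : Fin r) :
    below m q c i.castSucc = below m q c i.succ + m i.succ * (c * incr q i.succ) := by
  have e : ∀ l : Fin (r + 1), (if i.castSucc < l then m l * incr q l else 0) =
      (if i.succ < l then m l * incr q l else 0) +
        if l = i.succ then m i.succ * incr q i.succ else 0 := fun l => by
    rcases eq_or_ne l i.succ with rfl | hne
    · rw [if_pos (Fin.lt_def.2 (by simp)), if_neg (lt_irrefl _), if_pos rfl, zero_add]
    · rw [if_neg hne, add_zero]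
      refine if_congr ⟨fun h => ?_, fun h => lt_of_le_of_lt (castSucc_le_succ' i) h⟩ rfl rfl
      have : (l : ℕ) ≠ (i.succ : ℕ) := fun h' => hne (Fin.ext h')
      simp only [Fin.lt_def, Fin.val_succ, Fin.val_castSucc] at h this ⊢
      omega
  simp only [below, e, Finset.sum_add_distrib, Finset.sum_ite_eq', Finset.mem_univ, if_true]
  ring

lemma below_anti (hm : Levels m) (hq : Monotone q) (hc : 0 ≤ c) : Antitone (below m q c) := by
  refine Fin.antitone_iff_succ_le.2 fun i => ?_
  rw [below_succ]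
  have : 0 ≤ incr q i.succ := by rw [incr_succ']; exact sub_nonneg.2 (hq (castSucc_le_succ' i))
  exact le_add_of_nonneg_right (mul_nonneg (hm.unit _).1 (mul_nonneg hc this))

lemma m_succ_pos (hm : Levels m) (i : Fin r) : 0 < m i.succ :=
  hm.zero ▸ hm.strict (Fin.succ_pos i)

/-- Summation by parts against the masses of the levels. -/
lemma sum_lmass_mul (hm : m 0 = 0) (x : Fin (r + 1) → ℝ) :
    ∑ l, lmass m l * x l =
      x (Fin.last r) - ∑ i : Fin r, m i.succ * (x i.succ - x i.castSucc) := by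
  have e1 : ∑ l : Fin (r + 1), (if h : (l : ℕ) < r then m ⟨l + 1, by omega⟩ else 1) * x l =
      (∑ i : Fin r, m i.succ * x i.castSucc) + x (Fin.last r) := by
    rw [Fin.sum_univ_castSucc]
    simp [Fin.succ]
  have e2 : ∑ l, m l * x l = ∑ i : Fin r, m i.succ * x i.succ := by
    rw [Fin.sum_univ_succ, hm, zero_mul, zero_add]
  simp only [lmass, sub_mul, Finset.sum_sub_distrib, mul_sub]
  linarith [e1, e2]

lemma sum_lmass_one (hm : m 0 = 0) : ∑ l, lmass m l = 1 := by
  simpa using sum_lmass_mul hm fun _ => (1 : ℝ)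

lemma sum_lmass_below (hm : m 0 = 0) (i : Fin r) :
    ∑ l, lmass m l * (if l ≤ i.castSucc then (1 : ℝ) else 0) = m i.succ := by
  have hlast : ¬ Fin.last r ≤ i.castSucc := not_le.2 (Fin.castSucc_lt_last i)
  rw [sum_lmass_mul hm, if_neg hlast, zero_sub, Finset.sum_eq_single i]
  · rw [if_neg (not_le.2 (Fin.lt_def.2 (by simp) : i.castSucc < i.succ)), if_pos le_rfl]
    ring
  · intro j _ hne
    have : (j : ℕ) ≠ (i : ℕ) := fun h => hne (Fin.ext h)
    have hiff : (j.succ ≤ i.castSucc) ↔ (j.castSucc ≤ i.castSucc) := by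
      simp only [Fin.le_def, Fin.val_succ, Fin.val_castSucc]; omega
    by_cases h : j.succ ≤ i.castSucc
    · rw [if_pos h, if_pos (hiff.1 h)]; ring
    · rw [if_neg h, if_neg fun h' => h (hiff.2 h')]; ring
  · simp

/-- The integral of the distribution function above `s`. -/
noncomputable def tsum' (m p : Fin (r + 1) → ℝ) (s : ℝ) : ℝ := ∑ l, lmass m l * (1 - max s (p l))

lemma tail_stepLaw (hm : Levels m) (p : Fin (r + 1) → ℝ) (s : ℝ) :
    tail (stepLaw m p) s = tsum' m p s := by
  rw [tail, stepLaw, integral_finsetSum_measure fun l _ =>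
    (integrable_dirac (by simp)).smul_measure ENNReal.ofReal_ne_top]
  refine Finset.sum_congr rfl fun l _ => ?_
  rw [integral_smul_measure, integral_dirac, ENNReal.toReal_ofReal (lmass_nonneg hm l), smul_eq_mul]

lemma tsum_mem (hm : Levels m) {s : ℝ} (hs : s ∈ Icc (0 : ℝ) 1) (hp : ∀ l, p l ≤ 1) :
    0 ≤ tsum' m p s ∧ tsum' m p s ≤ 1 := by
  refine ⟨Finset.sum_nonneg fun l _ => mul_nonneg (lmass_nonneg hm l)
    (sub_nonneg.2 (max_le hs.2 (hp l))), ?_⟩
  refine (Finset.sum_le_sum fun l _ => mul_le_of_le_one_right (lmass_nonneg hm l)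
    (sub_le_self _ (hs.1.trans (le_max_left _ _)))).trans_eq (sum_lmass_one hm.zero)

lemma continuous_tsum (m p : Fin (r + 1) → ℝ) : Continuous (tsum' m p) :=
  continuous_finsetSum _ fun _ _ =>
    continuous_const.mul (continuous_const.sub (continuous_id.max continuous_const))

lemma tsum_dist (hm : Levels m) (p p' : Fin (r + 1) → ℝ) (s : ℝ) :
    |tsum' m p s - tsum' m p' s| ≤ ∑ l, lmass m l * |p l - p' l| := by
  rw [tsum', tsum', ← Finset.sum_sub_distrib]
  refine (Finset.abs_sum_le_sum_abs _ _).trans (Finset.sum_le_sum fun l _ => ?_)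
  rw [← mul_sub, abs_mul, abs_of_nonneg (lmass_nonneg hm l), sub_sub_sub_cancel_left, abs_sub_comm]
  refine mul_le_mul_of_nonneg_left ?_ (lmass_nonneg hm l)
  rw [max_comm s (p l), max_comm s (p' l)]
  exact abs_max_sub_max_le_abs _ _ s

lemma tsum_first (hp : Monotone p) {s : ℝ} (hs : s ≤ p 0) : tsum' m p s = tsum' m p (p 0) := by
  refine Finset.sum_congr rfl fun l _ => ?_
  rw [max_eq_right (hs.trans (hp (Fin.zero_le l))), max_eq_right (hp (Fin.zero_le l))]

lemma tsum_last (hm : m 0 = 0) (hp : Monotone p) {s : ℝ} (hs : p (Fin.last r) ≤ s) :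
    tsum' m p s = 1 - s := by
  have e : ∀ l, max s (p l) = s := fun l => max_eq_left ((hp (Fin.le_last l)).trans hs)
  simp only [tsum', e, ← Finset.sum_mul, sum_lmass_one hm, one_mul]

lemma tsum_piece (hm : m 0 = 0) (hp : Monotone p) (i : Fin r) {s : ℝ} (h1 : p i.castSucc ≤ s)
    (h2 : s ≤ p i.succ) :
    tsum' m p s = tsum' m p (p i.succ) + m i.succ * (p i.succ - s) := by
  rw [← sub_eq_iff_eq_add', ← sum_lmass_below hm i, Finset.sum_mul, tsum', tsum',
    ← Finset.sum_sub_distrib]
  refine Finset.sum_congr rfl fun l _ => ?_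
  by_cases hl : l ≤ i.castSucc
  · rw [if_pos hl, max_eq_left ((hp hl).trans h1),
      max_eq_left ((hp (hl.trans (castSucc_le_succ' i))))]
    ring
  · have hl' : i.succ ≤ l := by
      simp only [Fin.le_def, Fin.val_castSucc, Fin.val_succ] at hl ⊢; omega
    rw [if_neg hl, max_eq_right (h2.trans (hp hl')), max_eq_right (hp hl')]
    ring

/-- The integral of a function of the distribution tail, cut at the levels. -/
lemma integral_tsum {R : ℝ → ℝ} (hR : Continuous R) (hm : Levels m) (hp : Monotone p)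
    (hp1 : p (Fin.last r) ≤ 1) :
    ∫ s in (0 : ℝ)..1, R (tsum' m p s) =
      (∫ s in (0 : ℝ)..p 0, R (tsum' m p s)) +
        (∑ i : Fin r, (m i.succ)⁻¹ *
          ∫ d in tsum' m p (p i.succ)..tsum' m p (p i.castSucc), R d) +
        ∫ d in (0 : ℝ)..(1 - p (Fin.last r)), R d := by
  have hc : Continuous fun s => R (tsum' m p s) := hR.comp (continuous_tsum m p)
  have hi : ∀ x y, IntervalIntegrable (fun s => R (tsum' m p s)) volume x y :=
    fun x y => hc.intervalIntegrable x y
  have hend : ∫ s in p (Fin.last r)..1, R (tsum' m p s) =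
      ∫ d in (0 : ℝ)..(1 - p (Fin.last r)), R d := by
    rw [intervalIntegral.integral_congr (g := fun s => R (1 - s)) fun s hs => by
      rw [uIcc_of_le hp1] at hs
      simp only [tsum_last hm.zero hp hs.1],
      intervalIntegral.integral_comp_sub_left, sub_self]
  set xs : ℕ → ℝ := fun k => p ⟨min k r, by omega⟩ with hxs
  have hsum := intervalIntegral.sum_integral_adjacent_intervals (a := xs) (n := r)
    fun k _ => hi _ _
  have hx0 : xs 0 = p 0 := by simp [hxs]
  have hxr : xs r = p (Fin.last r) := by simp [hxs, Fin.last]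
  rw [← intervalIntegral.integral_add_adjacent_intervals (hi 0 (p 0)) (hi (p 0) 1),
    ← intervalIntegral.integral_add_adjacent_intervals (hi (p 0) (p (Fin.last r))) (hi _ 1), hend,
    ← hx0, ← hxr, ← hsum, ← Fin.sum_univ_eq_sum_range, add_assoc]
  rw [hx0, hxr]
  congr 2
  refine Finset.sum_congr rfl fun i _ => ?_
  have ea : xs i = p i.castSucc := by simp [hxs, Nat.min_eq_left i.2.le, Fin.castSucc, Fin.castAdd, Fin.castLE]
  have eb : xs (i + 1) = p i.succ := by simp [hxs, Nat.min_eq_left i.2, Fin.succ]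
  rw [ea, eb]
  have hle : p i.castSucc ≤ p i.succ := hp (castSucc_le_succ' i)
  set T := tsum' m p (p i.succ) with hT
  rw [intervalIntegral.integral_congr
    (g := fun s => R (T + m i.succ * p i.succ - m i.succ * s)) fun s hs => by
      rw [uIcc_of_le hle] at hs
      simp only [tsum_piece hm.zero hp i hs.1 hs.2, hT]
      ring_nf,
    intervalIntegral.integral_comp_sub_mul R (m_succ_pos hm i).ne', smul_eq_mul,
    tsum_piece hm.zero hp i le_rfl hle, hT]
  congr 2 <;> ring

end Vale.Agent.P166F.Low
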