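import Vale.Agent.P166F.Low.Formula.Defs
import Vale.Agent.P166F.Low.Formula.Levels

/-!
P166: the closed gain is exactly the functional at the consistent overlaps.
-/

namespace Vale.Agent.P166F.Low

open MeasureTheory Set Vale.Agent.P157.Low

variable {K r : ℕ} {a : Atoms K} {β θ c ε : ℝ} {i0 : Fin K} {m q : Fin (r + 1) → ℝ}

/-- The data of the closed formulas. -/
structure Setting (a : Atoms K) (β : ℝ) (i0 : Fin K) (m q : Fin (r + 1) → ℝ) (c θ ε : ℝ) : Prop where
  beta : 0 < β
  low : ∀ i, a.lam i0 ≤ a.lam i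
  share : 0 < θ ∧ θ < a.wt i0
  margin : Margin (dlA a β i0) m q c ε

namespace Setting

variable (S : Setting a β i0 m q c θ ε)
include S

lemma lev : Levels m := S.margin.lev

lemma incr_nonneg' (i : Fin r) : 0 ≤ incr q i.succ := by
  rw [incr_succ']; exact sub_nonneg.2 (S.margin.mono (castSucc_le_succ' i))

lemma below_pos (j : Fin (r + 1)) : 0 < below m q c j :=
  lt_of_lt_of_le (by
    rw [below_last]; exact mul_pos S.margin.pos.1 (sub_pos.2 (S.margin.ltOne _)))
    (below_anti S.lev S.margin.mono S.margin.pos.1.le (Fin.le_last j))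

lemma adm (j : Fin (r + 1)) : Adm a.wt (dls a β i0) (below m q c j) ε := by
  refine adm_atoms a S.beta.le S.low (S.below_pos j).le S.margin.pos.2 fun i => ?_
  refine le_trans ?_ (S.margin.edge (some i))
  rw [mul_comm]
  exact mul_le_mul_of_nonneg_left
    (below_anti S.lev S.margin.mono S.margin.pos.1.le (Fin.zero_le j))
    (mul_nonneg S.beta.le (sub_nonneg.2 (S.low i)))

lemma gfun_eq' (D : ℝ) : gfun (dlA a β i0) (vA a i0 θ) D = gw a.wt (dls a β i0) D := by
  have e : ∀ i, vA a i0 θ (some i) ^ 2 / (1 - D * dlA a β i0 (some i)) =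
      a.wt i / (1 - D * dls a β i0 i) - if i = i0 then θ else 0 := fun i => by
    simp only [vA, dlA, Option.elim_some, dls]
    rcases eq_or_ne i i0 with rfl | hne
    · rw [if_pos rfl, if_pos rfl, Real.sq_sqrt (sub_nonneg.2 S.share.2.le)]
      simp
    · rw [if_neg hne, if_neg hne, Real.sq_sqrt (a.pos i).le, sub_zero]
  rw [gfun, Fintype.sum_option]
  simp only [e, Finset.sum_sub_distrib, Finset.sum_ite_eq', Finset.mem_univ, if_true]
  simp [gw, vA, dlA, Real.sq_sqrt S.share.1.le]

lemma gder_eq' (D : ℝ) : gder (dlA a β i0) (vA a i0 θ) D = gw' a.wt (dls a β i0) D := by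
  rw [gder, Fintype.sum_option]
  simp only [gw', vA, dlA, Option.elim_none, Option.elim_some, mul_zero, zero_div, zero_add, dls]
  refine Finset.sum_congr rfl fun i _ => ?_
  rcases eq_or_ne i i0 with rfl | hne
  · simp
  · rw [if_neg hne, Real.sq_sqrt (a.pos i).le]

lemma kfun_eq' (j : Fin (r + 1)) :
    kfun (dlA a β i0) (vA a i0 θ) (below m q c j) = kw a.wt (dls a β i0) (below m q c j) := by
  rw [kfun, S.gfun_eq', (S.adm j).kw_eq (S.below_pos j)]

lemma rpath_zero : rpath (dlA a β i0) (vA a i0 θ) m q c 0 =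
    c * q 0 * kq a.wt (dls a β i0) (below m q c 0) (below m q c 0) := by
  rw [rpath, partial_zero, add_zero, kder, S.gfun_eq', S.gder_eq',
    (S.adm 0).kq_self (S.below_pos 0)]

lemma rpath_succ (i : Fin r) : rpath (dlA a β i0) (vA a i0 θ) m q c i.succ =
    rpath (dlA a β i0) (vA a i0 θ) m q c i.castSucc +
      c * incr q i.succ * kq a.wt (dls a β i0) (below m q c i.succ) (below m q c i.castSucc) := by
  simp only [rpath, partial_succ, ← below_succ, S.kfun_eq']
  rw [kw_sub (S.adm _) (S.adm _), below_succ, add_sub_cancel_left, add_assoc]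
  congr 2
  field_simp [(m_succ_pos S.lev i).ne']

lemma m_rpath_step (i : Fin r) :
    m i.succ * (rpath (dlA a β i0) (vA a i0 θ) m q c i.succ -
      rpath (dlA a β i0) (vA a i0 θ) m q c i.castSucc) =
      kw a.wt (dls a β i0) (below m q c i.castSucc) - kw a.wt (dls a β i0) (below m q c i.succ) := by
  rw [S.rpath_succ, kw_sub (S.adm _) (S.adm _), below_succ]
  ring

lemma ptilt_zero : ptilt a β i0 m q c 0 =
    ∑ i, a.wt i * (c * q 0 / (1 - below m q c 0 * dls a β i0 i) ^ 2) := by
  simp only [ptilt, tilt, partial_zero, add_zero, dls, mul_comm (below m q c 0)]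

lemma ptilt_succ (i : Fin r) : ptilt a β i0 m q c i.succ = ptilt a β i0 m q c i.castSucc +
    c * incr q i.succ * ∑ l, a.wt l / ((1 - below m q c i.succ * dls a β i0 l) *
      (1 - below m q c i.castSucc * dls a β i0 l)) := by
  simp only [ptilt, tilt, partial_succ, Finset.mul_sum, ← Finset.sum_add_distrib, ← below_succ, dls]
  refine Finset.sum_congr rfl fun l _ => ?_
  ring

lemma phi_step (i : Fin r) :
    m i.succ * (ptilt a β i0 m q c i.succ - ptilt a β i0 m q c i.castSucc) =
      below m q c i.castSucc * gw a.wt (dls a β i0) (below m q c i.castSucc) -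
        below m q c i.succ * gw a.wt (dls a β i0) (below m q c i.succ) := by
  have h : m i.succ * (c * incr q i.succ) = below m q c i.castSucc - below m q c i.succ := by
    rw [below_succ]; ring
  rw [S.ptilt_succ, add_sub_cancel_left, ← mul_assoc, h]
  simp only [gw, Finset.mul_sum, ← Finset.sum_sub_distrib]
  refine Finset.sum_congr rfl fun l _ => ?_
  have := ((S.adm i.succ).den_pos l).ne'
  have := ((S.adm i.castSucc).den_pos l).ne'
  field_simp
  ring

lemma pdiag_eq : pdiag a β i0 m q c = ptilt a β i0 m q c (Fin.last r) +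
    below m q c (Fin.last r) * gw a.wt (dls a β i0) (below m q c (Fin.last r)) := by
  simp only [pdiag, ptilt, gw, Finset.mul_sum, ← Finset.sum_add_distrib, dls]
  refine Finset.sum_congr rfl fun i _ => ?_
  rw [mul_comm (below m q c (Fin.last r)) (β * _), below_last]
  ring

end Setting

/-- The overlaps shifted onto consistency. -/
noncomputable def pshift (a : Atoms K) (β : ℝ) (i0 : Fin K) (m q : Fin (r + 1) → ℝ) (c : ℝ)
    (j : Fin (r + 1)) : ℝ :=
  ptilt a β i0 m q c j + (1 - pdiag a β i0 m q c)

/-- Twice the energy of the shifted overlaps, in closed form. -/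
noncomputable def eIdeal (a : Atoms K) (β : ℝ) (i0 : Fin K) (m q : Fin (r + 1) → ℝ) (c : ℝ) : ℝ :=
  β * a.lam i0 + pshift a β i0 m q c 0 * kw a.wt (dls a β i0) (below m q c 0) +
    (∑ i : Fin r, (m i.succ)⁻¹ * (prim a.wt (dls a β i0) (below m q c i.castSucc) -
      prim a.wt (dls a β i0) (below m q c i.succ))) +
    prim a.wt (dls a β i0) (below m q c (Fin.last r))

namespace Setting

variable (S : Setting a β i0 m q c θ ε)
include S

lemma pshift_last : pshift a β i0 m q c (Fin.last r) =
    1 - below m q c (Fin.last r) * gw a.wt (dls a β i0) (below m q c (Fin.last r)) := by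
  rw [pshift, S.pdiag_eq]; ring

lemma pshift_step (i : Fin r) :
    m i.succ * (pshift a β i0 m q c i.succ - pshift a β i0 m q c i.castSucc) =
      below m q c i.castSucc * gw a.wt (dls a β i0) (below m q c i.castSucc) -
        below m q c i.succ * gw a.wt (dls a β i0) (below m q c i.succ) := by
  rw [pshift, pshift, add_sub_add_right_eq_sub, S.phi_step]

lemma ptilt_mono : Monotone (ptilt a β i0 m q c) := by
  refine Fin.monotone_iff_le_succ.2 fun i => ?_
  rw [S.ptilt_succ]
  refine le_add_of_nonneg_right (mul_nonneg (mul_nonneg S.margin.pos.1.le (S.incr_nonneg' i))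
    (Finset.sum_nonneg fun l _ => ?_))
  exact div_nonneg (a.pos l).le (mul_nonneg ((S.adm _).den_pos l).le ((S.adm _).den_pos l).le)

lemma ptilt_nonneg (j : Fin (r + 1)) : 0 ≤ ptilt a β i0 m q c j := by
  refine le_trans ?_ (S.ptilt_mono (Fin.zero_le j))
  rw [S.ptilt_zero]
  exact Finset.sum_nonneg fun i _ => mul_nonneg (a.pos i).le
    (div_nonneg (mul_nonneg S.margin.pos.1.le (S.margin.nonneg 0)) (sq_nonneg _))

lemma pshift_mono : Monotone (pshift a β i0 m q c) := fun _ _ h =>
  add_le_add_left (S.ptilt_mono h) _ |>.trans_eq rfl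

lemma pshift_le_one (j : Fin (r + 1)) : pshift a β i0 m q c j ≤ 1 := by
  refine (S.pshift_mono (Fin.le_last j)).trans ?_
  rw [S.pshift_last]
  exact sub_le_self _ (mul_nonneg (S.below_pos _).le (S.adm _).gw_pos.le)

lemma tsum_pshift (j : Fin (r + 1)) : tsum' m (pshift a β i0 m q c) (pshift a β i0 m q c j) =
    below m q c j * gw a.wt (dls a β i0) (below m q c j) := by
  induction j using Fin.reverseInduction with
  | last => rw [tsum_last S.lev.zero S.pshift_mono le_rfl, S.pshift_last]; ring
  | cast i ih =>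
    rw [tsum_piece S.lev.zero S.pshift_mono i le_rfl (S.pshift_mono (castSucc_le_succ' i)), ih,
      S.pshift_step]
    ring

/-- The integral of the R-transform along the shifted overlaps is the closed form. -/
lemma integral_ideal :
    |(∫ s in (0 : ℝ)..1, rfun a β (tsum' m (pshift a β i0 m q c) s)) - eIdeal a β i0 m q c| ≤
      2 * (β * a.rad) * |pdiag a β i0 m q c - 1| := by
  set P := pshift a β i0 m q c with hP
  set T := fun j => below m q c j * gw a.wt (dls a β i0) (below m q c j) with hT
  have hR := continuous_rfun a S.beta.le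
  rw [integral_tsum hR S.lev S.pshift_mono (S.pshift_le_one _)]
  have hpiece : ∀ j, ∫ d in (0 : ℝ)..T j, rfun a β d =
      β * a.lam i0 * T j + prim a.wt (dls a β i0) (below m q c j) := fun j =>
    integral_rfun_param a S.beta (S.adm j)
  have hlast : 1 - P (Fin.last r) = T (Fin.last r) := by rw [hP, S.pshift_last]; ring
  have hmid : ∀ i : Fin r, ∫ d in tsum' m P (P i.succ)..tsum' m P (P i.castSucc), rfun a β d =
      β * a.lam i0 * (T i.castSucc - T i.succ) +
        (prim a.wt (dls a β i0) (below m q c i.castSucc) -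
          prim a.wt (dls a β i0) (below m q c i.succ)) := fun i => by
    rw [hP, S.tsum_pshift, S.tsum_pshift, ← intervalIntegral.integral_interval_sub_left
      (hR.intervalIntegrable 0 _) (hR.intervalIntegrable 0 _)]
    change (∫ d in (0 : ℝ)..T i.castSucc, rfun a β d) - ∫ d in (0 : ℝ)..T i.succ, rfun a β d = _
    rw [hpiece, hpiece]
    ring
  have hsum : ∑ i : Fin r, (m i.succ)⁻¹ * (T i.castSucc - T i.succ) = P (Fin.last r) - P 0 := by
    have e : ∀ i : Fin r, (m i.succ)⁻¹ * (T i.castSucc - T i.succ) = P i.succ - P i.castSucc :=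
      fun i => by
        simp only [hT, ← S.pshift_step]
        rw [← mul_assoc, inv_mul_cancel₀ (m_succ_pos S.lev i).ne', one_mul]
    rw [Finset.sum_congr rfl fun i _ => e i, Finset.sum_sub_distrib]
    have e1 := Fin.sum_univ_succ P
    have e2 := Fin.sum_univ_castSucc P
    linarith
  have hfirst : ∀ s, s ≤ P 0 → rfun a β (tsum' m P s) =
      β * a.lam i0 + kw a.wt (dls a β i0) (below m q c 0) := fun s hs => by
    rw [tsum_first S.pshift_mono hs, S.tsum_pshift, rfun_param a S.beta (S.below_pos 0) (S.adm 0)]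
  rw [hlast, hpiece]
  rw [Finset.sum_congr rfl fun i _ => congrArg (fun x => (m i.succ)⁻¹ * x) (hmid i)]
  simp only [mul_add, Finset.sum_add_distrib]
  have e3 : ∑ i : Fin r, (m i.succ)⁻¹ * (β * a.lam i0 * (T i.castSucc - T i.succ)) =
      β * a.lam i0 * (P (Fin.last r) - P 0) := by
    rw [← hsum, Finset.mul_sum]
    exact Finset.sum_congr rfl fun i _ => by ring
  rw [e3, eIdeal, ← hlast, ← hP]
  set K0 := kw a.wt (dls a β i0) (below m q c 0)
  rcases le_total 0 (P 0) with h0 | h0
  · rw [intervalIntegral.integral_congr (g := fun _ => β * a.lam i0 + K0) fun s hs => by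
      rw [uIcc_of_le h0] at hs
      exact hfirst s hs.2, intervalIntegral.integral_const, smul_eq_mul, sub_zero]
    refine le_trans (le_of_eq ?_) (mul_nonneg (mul_nonneg zero_le_two
      (mul_nonneg S.beta.le a.rad_nonneg)) (abs_nonneg _))
    rw [abs_eq_zero]
    ring
  · have hK : |β * a.lam i0 + K0| ≤ β * a.rad := by
      rw [← hfirst (P 0) le_rfl]; exact abs_rfun_le a S.beta.le _
    have hI : |∫ s in (0 : ℝ)..P 0, rfun a β (tsum' m P s)| ≤ β * a.rad * |P 0| := by
      rw [← Real.norm_eq_abs]
      refine (intervalIntegral.norm_integral_le_of_norm_le_const (C := β * a.rad) fun s _ =>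
        (Real.norm_eq_abs _).trans_le (abs_rfun_le a S.beta.le _)).trans_eq ?_
      rw [sub_zero]
    have hP0 : |P 0| ≤ |pdiag a β i0 m q c - 1| := by
      rw [abs_of_nonpos h0, hP, pshift]
      linarith [le_abs_self (pdiag a β i0 m q c - 1), S.ptilt_nonneg 0]
    calc _ = |(∫ s in (0 : ℝ)..P 0, rfun a β (tsum' m P s)) - P 0 * (β * a.lam i0 + K0)| := by
          congr 1; ring
      _ ≤ β * a.rad * |P 0| + |P 0| * (β * a.rad) := by
          refine (abs_sub _ _).trans (add_le_add hI ?_)
          rw [abs_mul]; exact mul_le_mul_of_nonneg_left hK (abs_nonneg _)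
      _ = 2 * (β * a.rad) * |P 0| := by ring
      _ ≤ _ := mul_le_mul_of_nonneg_left hP0
          (mul_nonneg zero_le_two (mul_nonneg S.beta.le a.rad_nonneg))

omit S in
lemma llog_eq (f f' : ℝ → ℝ) : llog m q c f f' =
    -(Real.log (f (below m q c (Fin.last r)))) / 2 +
      ((∑ i : Fin r, (Real.log (f (below m q c i.succ)) - Real.log (f (below m q c i.castSucc))) /
        (2 * m i.succ)) - c * q 0 * f' (below m q c 0) / (2 * f (below m q c 0))) := by
  rw [llog, sum_ne_zero']
  simp only [← below_succ]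

/-- At consistent overlaps the closed gain is the functional. -/
lemma gain_ideal : β * a.lam i0 / 2 + gainVal a β i0 θ m q c =
    eIdeal a β i0 m q c / 2 + xbar m (rpath (dlA a β i0) (vA a i0 θ) m q c) +
      pairing m (pshift a β i0 m q c) (rpath (dlA a β i0) (vA a i0 θ) m q c) := by
  set δ := dls a β i0 with hδ
  set B := below m q c with hB
  set R := rpath (dlA a β i0) (vA a i0 θ) m q c with hR
  set P := pshift a β i0 m q c with hP
  set g := fun j => gw a.wt δ (B j) with hg
  set L := fun j => llsum a.wt δ (B j) with hL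
  set k := fun j => kw a.wt δ (B j) with hk
  have hlogs : (∑ i, a.wt i * tLog m q c (β * (a.lam i - a.lam i0))) +
      llog m q c (gfun (dlA a β i0) (vA a i0 θ)) (gder (dlA a β i0) (vA a i0 θ)) =
      -L (Fin.last r) / 2 + (∑ i : Fin r, (L i.succ - L i.castSucc) / (2 * m i.succ)) +
        c * q 0 / 2 * (hw a.wt δ (B 0) - gw' a.wt δ (B 0) / g 0) := by
    have e1 : ∀ i, a.wt i * tLog m q c (β * (a.lam i - a.lam i0)) =
        -(a.wt i * Real.log (1 - B (Fin.last r) * δ i)) / 2 +
          (∑ l : Fin r, (a.wt i * Real.log (1 - B l.succ * δ i) -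
            a.wt i * Real.log (1 - B l.castSucc * δ i)) / (2 * m l.succ)) +
          c * q 0 / 2 * (a.wt i * δ i / (1 - B 0 * δ i)) := fun i => by
      rw [tLog, llog_eq]
      have e : ∀ j, 1 - B j * δ i = 1 - β * (a.lam i - a.lam i0) * below m q c j := fun j => by
        rw [hδ, dls, hB, mul_comm]
      have e' : δ i = β * (a.lam i - a.lam i0) := by rw [hδ, dls]
      simp only [e]
      rw [e']
      generalize 1 - β * (a.lam i - a.lam i0) * below m q c 0 = u
      simp only [← mul_sub, mul_div_assoc, ← Finset.mul_sum]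
      ring
    simp only [e1, Finset.sum_add_distrib]
    rw [Finset.sum_comm, llog_eq]
    simp only [S.gfun_eq', S.gder_eq', hL, hg, llsum, hw, ← hB, ← hδ, ← Finset.sum_div,
      Finset.sum_sub_distrib, ← Finset.mul_sum, Finset.sum_neg_distrib]
    have e2 : ∑ l : Fin r, ((∑ i, a.wt i * Real.log (1 - B l.succ * δ i)) + Real.log (gw a.wt δ (B l.succ)) -
        ((∑ i, a.wt i * Real.log (1 - B l.castSucc * δ i)) + Real.log (gw a.wt δ (B l.castSucc)))) /
          (2 * m l.succ) =
        (∑ l : Fin r, ((∑ i, a.wt i * Real.log (1 - B l.succ * δ i)) -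
          ∑ i, a.wt i * Real.log (1 - B l.castSucc * δ i)) / (2 * m l.succ)) +
        ∑ l : Fin r, (Real.log (gw a.wt δ (B l.succ)) - Real.log (gw a.wt δ (B l.castSucc))) /
          (2 * m l.succ) := by
      rw [← Finset.sum_add_distrib]
      exact Finset.sum_congr rfl fun l _ => by ring
    rw [e2]
    ring
  have hpair : pairing m P R =
      (P (Fin.last r) * R (Fin.last r) -
        ∑ i : Fin r, m i.succ * (P i.succ * R i.succ - P i.castSucc * R i.castSucc)) / 2 := by
    rw [pairing, ← sum_lmass_mul S.lev.zero (fun l => P l * R l)]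
    simp only [mul_assoc]
  set W := fun j => R j * (B j * g j) + P j * k j with hW
  have hterm : ∀ i : Fin r, (m i.succ)⁻¹ * (prim a.wt δ (B i.castSucc) - prim a.wt δ (B i.succ)) -
      m i.succ * (P i.succ * R i.succ - P i.castSucc * R i.castSucc) =
      2 * ((L i.succ - L i.castSucc) / (2 * m i.succ)) + (W i.succ - W i.castSucc) := fun i => by
    have hm0 := (m_succ_pos S.lev i).ne'
    have h1 := S.m_rpath_step i
    have h2 := S.pshift_step i
    rw [← hB, ← hR, ← hδ] at h1
    rw [← hB, ← hP, ← hδ] at h2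
    have g1 := (S.adm i.castSucc).gw_eq
    have g2 := (S.adm i.succ).gw_eq
    have k1 : ∀ j, k j * g j = hw a.wt δ (B j) := fun j => by
      simp only [hk, hg, kw]; exact div_mul_cancel₀ _ (S.adm j).gw_pos.ne'
    have n1 : (B i.castSucc * g i.castSucc) * k i.castSucc = g i.castSucc - 1 := by
      rw [mul_assoc, mul_comm (g i.castSucc), k1]; simp only [hg]; linarith
    have n2 : (B i.succ * g i.succ) * k i.succ = g i.succ - 1 := by
      rw [mul_assoc, mul_comm (g i.succ), k1]; simp only [hg]; linarith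
    change m i.succ * (R i.succ - R i.castSucc) = k i.castSucc - k i.succ at h1
    change m i.succ * (P i.succ - P i.castSucc) = B i.castSucc * g i.castSucc - B i.succ * g i.succ
      at h2
    simp only [prim, hW, hL]
    change (m i.succ)⁻¹ * (g i.castSucc - 1 - L i.castSucc - (g i.succ - 1 - L i.succ)) - _ =
      2 * ((L i.succ - L i.castSucc) / (2 * m i.succ)) + _
    field_simp
    linear_combination (-(B i.castSucc * g i.castSucc) - m i.succ * P i.castSucc) * h1 +
      (-k i.succ - m i.succ * R i.succ) * h2 - n1 + n2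
  have htel : ∑ i : Fin r, (W i.succ - W i.castSucc) = W (Fin.last r) - W 0 := by
    rw [Finset.sum_sub_distrib]
    have e1 := Fin.sum_univ_succ W
    have e2 := Fin.sum_univ_castSucc W
    linarith
  have hsum := Finset.sum_congr rfl fun i (_ : i ∈ (Finset.univ : Finset (Fin r))) => hterm i
  rw [Finset.sum_sub_distrib, Finset.sum_add_distrib, ← Finset.mul_sum, htel] at hsum
  have hR0 : R 0 = c * q 0 * kq a.wt δ (B 0) (B 0) := S.rpath_zero
  have hPr : P (Fin.last r) = 1 - B (Fin.last r) * g (Fin.last r) := S.pshift_last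
  have hg0 := (S.adm 0).gw_eq
  have hkr : (B (Fin.last r) * g (Fin.last r)) * k (Fin.last r) = g (Fin.last r) - 1 := by
    have := (S.adm (Fin.last r)).gw_eq
    simp only [hk, hg, kw, ← hB, ← hδ] at this ⊢
    have hne := (S.adm (Fin.last r)).gw_pos.ne'
    rw [← hB, ← hδ] at hne
    rw [mul_assoc, mul_comm (gw a.wt δ _), div_mul_cancel₀ _ hne]
    linarith
  have h00 : R 0 * (B 0 * g 0) = -(c * q 0 * (hw a.wt δ (B 0) - gw' a.wt δ (B 0) / g 0)) := by
    rw [hR0, (S.adm 0).kq_self (S.below_pos 0)]
    have := (S.adm 0).gw_pos.ne'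
    have := (S.below_pos 0).ne'
    simp only [hg, ← hB, ← hδ] at *
    field_simp
    linear_combination (-(c * q 0) * gw a.wt δ (B 0)) * hg0
  have hgain : gainVal a β i0 θ m q c = -L (Fin.last r) / 2 +
      (∑ i : Fin r, (L i.succ - L i.castSucc) / (2 * m i.succ)) +
        c * q 0 / 2 * (hw a.wt δ (B 0) - gw' a.wt δ (B 0) / g 0) + k (Fin.last r) / 2 +
        (xbar m R + R (Fin.last r) / 2) := by
    rw [gainVal, hlogs, S.kfun_eq']
  rw [hgain, eIdeal, hpair, ← hB, ← hδ, ← hP]
  simp only [prim]
  change _ = (β * a.lam i0 + P 0 * k 0 + _ + (g (Fin.last r) - 1 - L (Fin.last r))) / 2 + _ + _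
  simp only [hW] at hsum
  simp only [prim] at hsum
  linear_combination (-1 / 2 : ℝ) * hsum + (-R (Fin.last r) / 2 - k (Fin.last r) / 2) * hPr +
    (1 / 2 : ℝ) * hkr + (1 / 2 : ℝ) * h00

end Setting

end Vale.Agent.P166F.Low
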