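import Vale.Agent.P166F.Ent

/-!
P166: the squared slopes grow at most linearly in the variances of the levels.
-/

namespace Vale.Agent.P166F.Low

open MeasureTheory ProbabilityTheory Filter
open Vale.Agent.P157 Vale.Agent.P157.Low Vale.Agent.P166F.Chain

/-- The constant of the increase of the squared slopes over a level of variance at most `S`. -/
noncomputable def slopeC (S : ℝ) : ℝ :=
  8 * (∫ z, Real.exp ((Real.sqrt S + 1) * |z|) ∂gaussianReal 0 1) /
    ∫ z, Real.exp (-(Real.sqrt S) * |z|) ∂gaussianReal 0 1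

lemma integrable_exp_abs (c : ℝ) : Integrable (fun z => Real.exp (c * |z|)) (gaussianReal 0 1) := by
  refine ((integrable_exp_mul_gaussianReal c).add (integrable_exp_mul_gaussianReal (-c))).mono'
    (by fun_prop : Measurable fun z : ℝ => Real.exp (c * |z|)).aestronglyMeasurable
    (Eventually.of_forall fun z => ?_)
  simp only [Real.norm_eq_abs, Real.abs_exp, Pi.add_apply]
  rcases abs_choice z with h | h <;> rw [h]
  · linarith [Real.exp_pos (-c * z)]
  · rw [mul_neg, ← neg_mul]; linarith [Real.exp_pos (c * z)]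

lemma integral_exp_abs_pos (c : ℝ) : 0 < ∫ z, Real.exp (c * |z|) ∂gaussianReal 0 1 :=
  integral_exp_pos (integrable_exp_abs c)

lemma slopeC_nonneg (S : ℝ) : 0 ≤ slopeC S :=
  div_nonneg (mul_nonneg (by norm_num) (integral_exp_abs_pos _).le) (integral_exp_abs_pos _).le

/-- The tilted variance of a slope. -/
lemma tilt_var_le {U u : ℝ → ℝ} (hn : Nice U u) {m s S : ℝ} (hm : 0 ≤ m) (hm1 : m ≤ 1) (hs : 0 ≤ s)
    (hS : s ≤ S) (y : ℝ) :
    ltilt m s U (fun z => u z ^ 2) y - ltilt m s U u y ^ 2 ≤ slopeC S * s := by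
  set w := fun z => Real.exp (m * U (y + Real.sqrt s * z)) with hw
  set Z := ∫ z, w z ∂gaussianReal 0 1 with hZ
  set a := u y with ha
  have i0 : Integrable w (gaussianReal 0 1) := (wgt_step hn.lip m y s).int
  have i1 := int_step hn.lip hn.meas hn.bd m y s
  have i2 := int_step hn.lip (hn.meas.pow_const 2) hn.sq_le_one m y s
  have hZp : 0 < Z := (wgt_step hn.lip m y s).pos
  have hsq : Real.sqrt s ≤ Real.sqrt S := Real.sqrt_le_sqrt hS
  have hlip : ∀ z, |U (y + Real.sqrt s * z) - U y| ≤ Real.sqrt S * |z| := fun z => by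
    have h := hn.lip.lip y (Real.sqrt s * z)
    rw [Real.norm_eq_abs, one_mul, abs_mul, abs_of_nonneg (Real.sqrt_nonneg _)] at h
    exact h.trans (mul_le_mul_of_nonneg_right hsq (abs_nonneg z))
  have hexp : ∀ z, Real.exp (m * U y) * Real.exp (-(Real.sqrt S) * |z|) ≤ w z ∧
      w z ≤ Real.exp (m * U y) * Real.exp (Real.sqrt S * |z|) := fun z => by
    obtain ⟨h1, h2⟩ := abs_le.1 (hlip z)
    have h0 : 0 ≤ Real.sqrt S * |z| := mul_nonneg (Real.sqrt_nonneg _) (abs_nonneg _)
    simp only [hw, ← Real.exp_add, Real.exp_le_exp]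
    constructor
    · nlinarith [mul_le_mul_of_nonneg_left h1 hm, mul_le_of_le_one_left h0 hm1]
    · nlinarith [mul_le_mul_of_nonneg_left h2 hm, mul_le_of_le_one_left h0 hm1]
  have hlow : Real.exp (m * U y) * ∫ z, Real.exp (-(Real.sqrt S) * |z|) ∂gaussianReal 0 1 ≤ Z := by
    rw [hZ, ← integral_const_mul]
    exact integral_mono ((integrable_exp_abs _).const_mul _) i0 fun z => (hexp z).1
  have i2' : Integrable (fun z => w z * u (y + Real.sqrt s * z) ^ 2) (gaussianReal 0 1) := i2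
  have i1' : Integrable (fun z => 2 * a * (w z * u (y + Real.sqrt s * z))) (gaussianReal 0 1) :=
    i1.const_mul (2 * a)
  have i21 : Integrable (fun z => w z * u (y + Real.sqrt s * z) ^ 2 -
      2 * a * (w z * u (y + Real.sqrt s * z))) (gaussianReal 0 1) := i2'.sub i1'
  have i3 : Integrable (fun z => w z * u (y + Real.sqrt s * z) ^ 2 -
      2 * a * (w z * u (y + Real.sqrt s * z)) + a ^ 2 * w z) (gaussianReal 0 1) :=
    (i2.sub (i1.const_mul (2 * a))).add (i0.const_mul (a ^ 2))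
  have hup : ∫ z, (w z * u (y + Real.sqrt s * z) ^ 2 -
      2 * a * (w z * u (y + Real.sqrt s * z)) + a ^ 2 * w z) ∂gaussianReal 0 1 ≤
      8 * s * Real.exp (m * U y) * ∫ z, Real.exp ((Real.sqrt S + 1) * |z|) ∂gaussianReal 0 1 := by
    rw [← integral_const_mul]
    refine integral_mono i3 ((integrable_exp_abs _).const_mul _) fun z => ?_
    have hd : (u (y + Real.sqrt s * z) - a) ^ 2 ≤ 4 * (s * z ^ 2) := by
      have h := hn.slope_lip y (y + Real.sqrt s * z)
      rw [add_sub_cancel_left, ← ha] at h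
      have h' := pow_le_pow_left₀ (abs_nonneg _) h 2
      rw [sq_abs, mul_pow, sq_abs, mul_pow, Real.sq_sqrt hs] at h'
      linarith
    have hz : z ^ 2 ≤ 2 * Real.exp |z| := by
      have := Real.quadratic_le_exp_of_nonneg (abs_nonneg z)
      rw [← sq_abs z]; nlinarith [abs_nonneg z]
    calc w z * u (y + Real.sqrt s * z) ^ 2 - 2 * a * (w z * u (y + Real.sqrt s * z)) + a ^ 2 * w z
        = w z * (u (y + Real.sqrt s * z) - a) ^ 2 := by ring
      _ ≤ (Real.exp (m * U y) * Real.exp (Real.sqrt S * |z|)) * (4 * (s * (2 * Real.exp |z|))) :=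
          mul_le_mul (hexp z).2 (hd.trans (by nlinarith)) (sq_nonneg _) (by positivity)
      _ = _ := by rw [add_mul, one_mul, Real.exp_add]; ring
  rw [integral_add i21 (i0.const_mul _), integral_sub i2' i1',
    integral_const_mul, integral_const_mul] at hup
  set M2 := ∫ z, w z * u (y + Real.sqrt s * z) ^ 2 ∂gaussianReal 0 1
  set M1 := ∫ z, w z * u (y + Real.sqrt s * z) ∂gaussianReal 0 1
  have key : ltilt m s U (fun z => u z ^ 2) y - ltilt m s U u y ^ 2 ≤
      (M2 - 2 * a * M1 + a ^ 2 * Z) / Z := by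
    rw [ltilt_eq, ltilt_eq]
    change M2 / Z - (M1 / Z) ^ 2 ≤ _
    have e : (M2 - 2 * a * M1 + a ^ 2 * Z) / Z = M2 / Z - 2 * a * (M1 / Z) + a ^ 2 := by
      field_simp
    rw [e]
    nlinarith [sq_nonneg (M1 / Z - a)]
  refine key.trans ?_
  rw [slopeC, div_mul_eq_mul_div, div_le_div_iff₀ hZp (integral_exp_abs_pos _)]
  calc (M2 - 2 * a * M1 + a ^ 2 * Z) * ∫ z, Real.exp (-(Real.sqrt S) * |z|) ∂gaussianReal 0 1
      ≤ 8 * s * Real.exp (m * U y) * (∫ z, Real.exp ((Real.sqrt S + 1) * |z|) ∂gaussianReal 0 1) *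
          ∫ z, Real.exp (-(Real.sqrt S) * |z|) ∂gaussianReal 0 1 :=
        mul_le_mul_of_nonneg_right hup (integral_exp_abs_pos _).le
    _ ≤ _ := by
        have := mul_le_mul_of_nonneg_left hlow (mul_nonneg (mul_nonneg (by norm_num : (0 : ℝ) ≤ 8) hs)
          (integral_exp_abs_pos (Real.sqrt S + 1)).le)
        linarith

lemma cSq_succ_le : ∀ (ms : List ℝ) (Q : ℕ → ℝ) (j : ℕ), UnitExps ms → j < ms.length →
    ∀ {S : ℝ}, 0 ≤ Q (j + 1) - Q j → Q (j + 1) - Q j ≤ S →
    ∀ y, cSq ms Q (j + 1) y - cSq ms Q j y ≤ slopeC S * (Q (j + 1) - Q j)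
  | [], _, _, _, h, _, _, _, _ => absurd h (by simp)
  | m :: ms, Q, 0, h, _, S, h0, hS, y => by
    have hn := nice_chain ms (fun n => Q (n + 1)) h.tail
    obtain ⟨hm, hm1⟩ := h m (List.mem_cons_self ..)
    simp only [cSq_zero, cSlope, cSq]
    exact tilt_var_le hn hm hm1 h0 hS y
  | m :: ms, Q, j + 1, h, hl, S, h0, hS, y => by
    obtain ⟨a1, a2, -⟩ := cSq_props ms (fun n => Q (n + 1)) j h.tail
    obtain ⟨b1, b2, -⟩ := cSq_props ms (fun n => Q (n + 1)) (j + 1) h.tail
    have hU := (nice_chain ms (fun n => Q (n + 1)) h.tail).lip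
    have ih := cSq_succ_le ms (fun n => Q (n + 1)) j h.tail (by simpa using hl) h0 hS
    simp only [cSq]
    set U := cPot ms fun k => Q (k + 1)
    set s := Q 1 - Q 0
    rw [ltilt_eq, ltilt_eq, ← sub_div, ← integral_sub (int_step hU b1 b2 m y s) (int_step hU a1 a2 m y s),
      div_le_iff₀ (wgt_step hU m y s).pos, ← integral_const_mul]
    refine integral_mono ((int_step hU b1 b2 m y s).sub (int_step hU a1 a2 m y s))
      ((wgt_step hU m y s).int.const_mul _) fun z => ?_
    rw [← mul_sub, mul_comm (slopeC S * _)]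
    exact mul_le_mul_of_nonneg_left (ih _) (Real.exp_pos _).le

variable {r : ℕ} {m a : Fin (r + 1) → ℝ}

lemma slopeSq_step (hm : Levels m) (i : Fin r) {S : ℝ} (h0 : 0 ≤ incr a i.succ)
    (hS : incr a i.succ ≤ S) :
    slopeSq m a i.succ - slopeSq m a i.castSucc ≤ slopeC S * incr a i.succ := by
  rw [slopeSq_eq hm.unit a 0, slopeSq_eq hm.unit a 0]
  simp only [Fin.val_castSucc, Fin.val_succ]
  have e : cumVar a 0 ((i : ℕ) + 1 + 1) - cumVar a 0 ((i : ℕ) + 1) = incr a i.succ :=
    cumVar_sub a 0 (by omega)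
  rw [← e] at h0 hS ⊢
  exact cSq_succ_le _ _ _ (unitExps_expsList hm.unit) (by rw [length_expsList]; omega) h0 hS 0

end Vale.Agent.P166F.Low
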