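import Vale.Agent.P166F.Low.Defs

/-!
P166: the slopes and directions of an atomic spectrum, the overlaps and the gain of one spin.
-/

namespace Vale.Agent.P166F.Low

open MeasureTheory Vale.Agent.P157.Low

variable {K r : ℕ}

/-- Slopes above the lowest atom; the extra class has slope zero. -/
noncomputable def dlA (a : Atoms K) (β : ℝ) (i0 : Fin K) : Option (Fin K) → ℝ :=
  fun j => j.elim 0 fun i => β * (a.lam i - a.lam i0)

/-- Directions splitting a share `θ` off the lowest atom. -/
noncomputable def vA (a : Atoms K) (i0 : Fin K) (θ : ℝ) : Option (Fin K) → ℝ :=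
  fun j => j.elim (Real.sqrt θ) fun i => Real.sqrt (if i = i0 then a.wt i - θ else a.wt i)

/-- The overlaps of the directions along the levels. -/
noncomputable def ptilt (a : Atoms K) (β : ℝ) (i0 : Fin K) (m q : Fin (r + 1) → ℝ) (c : ℝ)
    (j : Fin (r + 1)) : ℝ :=
  ∑ i, a.wt i * tilt m q c (β * (a.lam i - a.lam i0)) j

/-- The self-overlap of the directions. -/
noncomputable def pdiag (a : Atoms K) (β : ℝ) (i0 : Fin K) (m q : Fin (r + 1) → ℝ) (c : ℝ) : ℝ :=
  ∑ i, a.wt i * (tilt m q c (β * (a.lam i - a.lam i0)) (Fin.last r) +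
    c * (1 - q (Fin.last r)) / (1 - β * (a.lam i - a.lam i0) * below m q c (Fin.last r)))

/-- The gain of one spin in closed form. -/
noncomputable def gainVal (a : Atoms K) (β : ℝ) (i0 : Fin K) (θ : ℝ) (m q : Fin (r + 1) → ℝ) (c : ℝ) :
    ℝ :=
  (∑ i, a.wt i * tLog m q c (β * (a.lam i - a.lam i0))) +
    llog m q c (gfun (dlA a β i0) (vA a i0 θ)) (gder (dlA a β i0) (vA a i0 θ)) +
    kfun (dlA a β i0) (vA a i0 θ) (below m q c (Fin.last r)) / 2 +
    (xbar m (rpath (dlA a β i0) (vA a i0 θ) m q c) +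
      rpath (dlA a β i0) (vA a i0 θ) m q c (Fin.last r) / 2)

end Vale.Agent.P166F.Low
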